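import Vale.Agent.P062.R0
import Vale.Agent.P062.R1
import Vale.Agent.P062.R2
import Vale.Agent.P062.R3
import Vale.Agent.P062.R4
import Vale.Agent.P062.R5
import Vale.Agent.P062.R6

namespace Vale.Agent.P062

theorem all_ok : ∀ i < 12539, cardOK db i (db i) = true := by
  intro i hi
  by_cases h0 : i < 256
  · exact rangeOK_spec r0 i (by omega) (by omega)
  by_cases h1 : i < 512
  · exact rangeOK_spec r1 i (by omega) (by omega)
  by_cases h2 : i < 768
  · exact rangeOK_spec r2 i (by omega) (by omega)
  by_cases h3 : i < 1024
  · exact rangeOK_spec r3 i (by omega) (by omega)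
  by_cases h4 : i < 1280
  · exact rangeOK_spec r4 i (by omega) (by omega)
  by_cases h5 : i < 1536
  · exact rangeOK_spec r5 i (by omega) (by omega)
  by_cases h6 : i < 1792
  · exact rangeOK_spec r6 i (by omega) (by omega)
  by_cases h7 : i < 2048
  · exact rangeOK_spec r7 i (by omega) (by omega)
  by_cases h8 : i < 2304
  · exact rangeOK_spec r8 i (by omega) (by omega)
  by_cases h9 : i < 2560
  · exact rangeOK_spec r9 i (by omega) (by omega)
  by_cases h10 : i < 2816
  · exact rangeOK_spec r10 i (by omega) (by omega)
  by_cases h11 : i < 3072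
  · exact rangeOK_spec r11 i (by omega) (by omega)
  by_cases h12 : i < 3328
  · exact rangeOK_spec r12 i (by omega) (by omega)
  by_cases h13 : i < 3584
  · exact rangeOK_spec r13 i (by omega) (by omega)
  by_cases h14 : i < 3840
  · exact rangeOK_spec r14 i (by omega) (by omega)
  by_cases h15 : i < 4096
  · exact rangeOK_spec r15 i (by omega) (by omega)
  by_cases h16 : i < 4352
  · exact rangeOK_spec r16 i (by omega) (by omega)
  by_cases h17 : i < 4608
  · exact rangeOK_spec r17 i (by omega) (by omega)
  by_cases h18 : i < 4864
  · exact rangeOK_spec r18 i (by omega) (by omega)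
  by_cases h19 : i < 5120
  · exact rangeOK_spec r19 i (by omega) (by omega)
  by_cases h20 : i < 5376
  · exact rangeOK_spec r20 i (by omega) (by omega)
  by_cases h21 : i < 5632
  · exact rangeOK_spec r21 i (by omega) (by omega)
  by_cases h22 : i < 5888
  · exact rangeOK_spec r22 i (by omega) (by omega)
  by_cases h23 : i < 6144
  · exact rangeOK_spec r23 i (by omega) (by omega)
  by_cases h24 : i < 6400
  · exact rangeOK_spec r24 i (by omega) (by omega)
  by_cases h25 : i < 6656
  · exact rangeOK_spec r25 i (by omega) (by omega)
  by_cases h26 : i < 6912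
  · exact rangeOK_spec r26 i (by omega) (by omega)
  by_cases h27 : i < 7168
  · exact rangeOK_spec r27 i (by omega) (by omega)
  by_cases h28 : i < 7424
  · exact rangeOK_spec r28 i (by omega) (by omega)
  by_cases h29 : i < 7680
  · exact rangeOK_spec r29 i (by omega) (by omega)
  by_cases h30 : i < 7936
  · exact rangeOK_spec r30 i (by omega) (by omega)
  by_cases h31 : i < 8192
  · exact rangeOK_spec r31 i (by omega) (by omega)
  by_cases h32 : i < 8448
  · exact rangeOK_spec r32 i (by omega) (by omega)
  by_cases h33 : i < 8704
  · exact rangeOK_spec r33 i (by omega) (by omega)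
  by_cases h34 : i < 8960
  · exact rangeOK_spec r34 i (by omega) (by omega)
  by_cases h35 : i < 9216
  · exact rangeOK_spec r35 i (by omega) (by omega)
  by_cases h36 : i < 9472
  · exact rangeOK_spec r36 i (by omega) (by omega)
  by_cases h37 : i < 9728
  · exact rangeOK_spec r37 i (by omega) (by omega)
  by_cases h38 : i < 9984
  · exact rangeOK_spec r38 i (by omega) (by omega)
  by_cases h39 : i < 10240
  · exact rangeOK_spec r39 i (by omega) (by omega)
  by_cases h40 : i < 10496
  · exact rangeOK_spec r40 i (by omega) (by omega)
  by_cases h41 : i < 10752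
  · exact rangeOK_spec r41 i (by omega) (by omega)
  by_cases h42 : i < 11008
  · exact rangeOK_spec r42 i (by omega) (by omega)
  by_cases h43 : i < 11264
  · exact rangeOK_spec r43 i (by omega) (by omega)
  by_cases h44 : i < 11520
  · exact rangeOK_spec r44 i (by omega) (by omega)
  by_cases h45 : i < 11776
  · exact rangeOK_spec r45 i (by omega) (by omega)
  by_cases h46 : i < 12032
  · exact rangeOK_spec r46 i (by omega) (by omega)
  by_cases h47 : i < 12288
  · exact rangeOK_spec r47 i (by omega) (by omega)
  by_cases h48 : i < 12539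
  · exact rangeOK_spec r48 i (by omega) (by omega)
  omega

theorem root_C : fC (db 12538) = 0 := by decide +kernel

theorem wins : WinsIn 12538 ∅ ∅ :=
  all_valid db 12539 all_ok 12538 (by norm_num) 0 ∅ ∅ (by simp) (by simp [root_C]) (by simp)

end Vale.Agent.P062
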